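import Vale.Agent.P022.H67.Der
import Vale.Agent.P022.H645.Tr

/-!
# P022 stage 3, block [DER]: iterated derivatives modulo `2 ^ t`
-/

open Complex UpperHalfPlane Derivative EisensteinSeries CongruenceSubgroup
open scoped Real MatrixGroups ModularForm Manifold

noncomputable section

namespace Vale.Agent.P022.H67

open Vale.Agent.P022.H220 Vale.Agent.P022.H889 Vale.Agent.P022.H645

/-- `E₂` has integral coefficients -/
theorem Ex_E2 (O : Subring ℂ) : Ex O.toAddSubgroup 1 (fun τ => E2 τ) := by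
  refine ⟨fun n => if n = 0 then 1 else -24 * (ArithmeticFunction.sigma 1 n : ℂ), fun n => ?_,
    fun τ => ?_⟩
  · dsimp only
    split_ifs
    · exact O.one_mem
    · exact O.mul_mem (O.neg_mem (ofNat_mem O 24)) (natCast_mem O _)
  · refine hs_congr' (hasSum_qExpansion_E2 (z := τ)) fun n => ?_
    rw [smul_eq_mul, Ex.cexp_pow]
    push_cast
    rw [div_one]

/-- roots of unity in `O` -/
theorem rs_self {O : Subring ℂ} (hO : ∀ z : ℂ, ∀ n : ℕ, 0 < n → z ^ n = 1 → z ∈ O) :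
    Ex.RootStable O.toAddSubgroup := fun _ ha z n hn hz => O.mul_mem (hO z n hn hz) ha

theorem Ex_E2_aff {O : Subring ℂ} (hO : ∀ z : ℂ, ∀ n : ℕ, 0 < n → z ^ n = 1 → z ∈ O)
    (a : ℕ) (b : ℤ) (d : ℕ) (ha : 0 < a) (hd : 0 < d) :
    Ex O.toAddSubgroup d (fun τ => E2 (aff a b d ha hd τ)) := by
  have := Ex.tri (c := a) (d := d) one_pos (rs_self hO) ha hd b
    (G := fun τ => E2 (aff a b d ha hd τ))
    (fun τ => ⟨aff a b d ha hd τ, aff_coe a b d ha hd τ, rfl⟩) (Ex_E2 O)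
  rwa [one_mul] at this

/-- `E₂` has period one -/
theorem E2_per (n : ℤ) (τ τ' : ℍ) (h : (τ' : ℂ) = τ + n) : E2 τ' = E2 τ := by
  obtain ⟨a, -, hs⟩ := Ex_E2 (⊤ : Subring ℂ)
  refine (hs τ').unique (hs_congr' (hs τ) fun m => ?_)
  rw [h]
  have : 2 * π * Complex.I * (m : ℂ) * ((τ : ℂ) + n) / ((1 : ℕ) : ℂ) =
      2 * π * Complex.I * (m : ℂ) * (τ : ℂ) / ((1 : ℕ) : ℂ) +
        ((m * n : ℤ) : ℂ) * (2 * π * Complex.I) := by
    push_cast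
    ring
  rw [this, Complex.exp_add, Complex.exp_int_mul_two_pi_mul_I, mul_one]

/-- on `Γ₀(M)` the operator commutes with the slash -/
theorem dM_slash0 (M : ℕ) (hM : 0 < M) (k : ℕ) (F : ℍ → ℂ) (hF : MDiff F) (γ : SL(2, ℤ))
    (hγ : (M : ℤ) ∣ γ.1 1 0) :
    dM M hM k F ∣[((k + 2 : ℕ) : ℤ)] γ = dM M hM k (F ∣[(k : ℤ)] γ) := by
  obtain ⟨a, b, d, ha, hd, h1, h2, h3⟩ := dM_slash M hM k F hF γ
  obtain ⟨rfl, rfl⟩ := h2 hγ
  funext τ
  rw [h3, dM]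
  have : E2 (aff a b 1 ha hd τ) = E2 (aff a 0 1 hM one_pos τ) := by
    refine E2_per b _ _ ?_
    rw [aff_coe, aff_coe]
    push_cast
    ring
  rw [this]
  push_cast
  ring

/-- `2`-adic valuations of integers -/
theorem inv_mem_two {O : Subring ℂ} (ho : ∀ m : ℕ, Odd m → ((m : ℂ)⁻¹) ∈ O) {R : ℕ} (hR : 0 < R) :
    ∃ v : ℕ, ((R : ℂ)⁻¹) ∈ two O (-(v : ℤ)) := by
  obtain ⟨v, m, hm, rfl⟩ := Nat.exists_eq_two_pow_mul_odd hR.ne'
  refine ⟨v, (m : ℂ)⁻¹, ho m hm, ?_⟩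
  push_cast
  rw [mul_inv, _root_.zpow_neg, zpow_natCast]

theorem nat_mul_two {O : Subring ℂ} {m : ℤ} {x : ℂ} (hx : x ∈ two O m) (n : ℕ) :
    (n : ℂ) * x ∈ two O m := by
  have := (two O m).nsmul_mem hx n
  simpa using this

/-- expansions of `dM` at all cusps, `M = 2 ^ t` -/
theorem dM_cusps {O : Subring ℂ} (hO : ∀ z : ℂ, ∀ n : ℕ, 0 < n → z ^ n = 1 → z ∈ O)
    (ho : ∀ m : ℕ, Odd m → ((m : ℂ)⁻¹) ∈ O) (M : ℕ) (hM : 0 < M) (B R : ℕ) (hR : 0 < R) :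
    ∃ B' R' : ℕ, 0 < R' ∧ ∀ (k : ℕ) (F : ℍ → ℂ),
      (∀ γ : SL(2, ℤ), Ex (two O (-(B : ℤ))) R (F ∣[(k : ℤ)] γ)) →
      ∀ γ : SL(2, ℤ), Ex (two O (-(B' : ℤ))) R' (dM M hM k F ∣[((k + 2 : ℕ) : ℤ)] γ) := by
  obtain ⟨v, hv⟩ := inv_mem_two ho hR
  obtain ⟨w, hw⟩ := inv_mem_two ho (R := 12 * M) (by positivity)
  refine ⟨B + v + w, R * M, by positivity, fun k F hF γ => ?_⟩
  have hF1 : F ∣[(k : ℤ)] (1 : SL(2, ℤ)) = F := SlashAction.slash_one _ _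
  have hFd : MDiff F := Ex_mdiff hR (hF1 ▸ hF 1)
  obtain ⟨a, b, d, ha, hd, h1, -, h3⟩ := dM_slash M hM k F hFd γ
  have e1 : Ex (two O (-((B + v + w : ℕ) : ℤ))) (R * M) (D (F ∣[(k : ℤ)] γ)) := by
    refine Ex.up hR hM (Ex_D hR (hF γ) fun x hx n => ?_)
    have h4 : (n : ℂ) / R * x = n * ((R : ℂ)⁻¹ * x) := by ring
    rw [h4]
    refine two_anti O (n := -((v : ℤ)) + -(B : ℤ)) ?_ (nat_mul_two (two_mul_mem _ hv _ hx) n)
    push_cast
    linarith [Int.natCast_nonneg w]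
  have e2 : Ex O.toAddSubgroup (R * M) (fun τ => E2 (aff a b d ha hd τ)) := by
    have : R * M = d * (a * R) := by rw [← h1]; ring
    rw [this]
    exact Ex.up hd (by positivity) (Ex_E2_aff hO a b d ha hd)
  have e3 : Ex (two O (-((B + v + w : ℕ) : ℤ))) (R * M) (fun τ => (k : ℂ) / 12 * (a / d) *
      (E2 (aff a b d ha hd τ) * (F ∣[(k : ℤ)] γ) τ)) := by
    have h4 : Ex (two O (-(B : ℤ))) (R * M)
        (fun τ => E2 (aff a b d ha hd τ) * (F ∣[(k : ℤ)] γ) τ) := by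
      refine Ex.mul (A := O.toAddSubgroup) (B := two O (-(B : ℤ))) (fun x hx y hy => ?_) e2
        (Ex.up hR hM (hF γ))
      rw [← two_zero] at hx
      have := two_mul_mem _ hx _ hy
      rwa [zero_add] at this
    refine Ex.smul (fun x hx => ?_) h4
    have h5 : (k : ℂ) / 12 * (a / d) * x = ((k * a * a : ℕ) : ℂ) * (((12 * M : ℕ) : ℂ)⁻¹ * x) := by
      rw [← h1]
      have ha0 : (a : ℂ) ≠ 0 := by exact_mod_cast ha.ne'
      have hd0 : (d : ℂ) ≠ 0 := by exact_mod_cast hd.ne'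
      push_cast
      field_simp
    rw [h5]
    refine two_anti O (n := -((w : ℤ)) + -(B : ℤ)) ?_ (nat_mul_two (two_mul_mem _ hw _ hx) _)
    push_cast
    linarith [Int.natCast_nonneg v]
  refine Ex.congr (fun τ => ?_) (Ex.sub e1 e3)
  rw [h3]
  ring

/-- at infinity `dM F` is congruent to `D F` -/
theorem dM_cong {O : Subring ℂ} (h3 : ((3 : ℂ)⁻¹) ∈ O) (hO : ∀ z : ℂ, ∀ n : ℕ, 0 < n → z ^ n = 1 → z ∈ O)
    (t k : ℕ) (c : ℤ) (F : ℍ → ℂ) (hF : Ex (two O c) 1 F) :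
    Ex (two O (c + t - 2)) 1
      (fun τ => dM (2 ^ t) (Nat.two_pow_pos t) k F τ - D F τ) := by
  have e2 := Ex_E2_aff hO (2 ^ t) 0 1 (Nat.two_pow_pos t) one_pos
  have h4 : Ex (two O c) 1 (fun τ => E2 (aff (2 ^ t) 0 1 (Nat.two_pow_pos t) one_pos τ) * F τ) := by
    refine Ex.mul (A := O.toAddSubgroup) (B := two O c) (fun x hx y hy => ?_) e2 hF
    rw [← two_zero] at hx
    have := two_mul_mem _ hx _ hy
    rwa [zero_add] at this
  have h5 := Ex.smul (c := -((k : ℂ) / 12 * 2 ^ t)) (B := two O (c + t - 2)) (fun x hx => ?_) h4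
  · refine Ex.congr (fun τ => ?_) h5
    rw [dM]
    push_cast
    ring
  · obtain ⟨y, hy, rfl⟩ := hx
    refine ⟨-(k * 3⁻¹ * y), O.neg_mem (O.mul_mem (O.mul_mem (natCast_mem O k) h3) hy), ?_⟩
    rw [zpow_sub₀ two_ne_zero, zpow_add₀ two_ne_zero, zpow_natCast]
    norm_num
    ring

/-- iterated derivatives on `Γ₀(2^t)` -/
def itM (t k : ℕ) (F : ℍ → ℂ) : ℕ → ℍ → ℂ
  | 0 => F
  | j + 1 => dM (2 ^ t) (Nat.two_pow_pos t) (k + 2 * j) (itM t k F j)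

variable {O : Subring ℂ}

/-- expansions at all cusps of the iterated derivatives: denominators uniform in `F` -/
theorem itM_cusps (hO : ∀ z : ℂ, ∀ n : ℕ, 0 < n → z ^ n = 1 → z ∈ O)
    (ho : ∀ m : ℕ, Odd m → ((m : ℂ)⁻¹) ∈ O) (t B R : ℕ) (hR : 0 < R) (j : ℕ) :
    ∃ B' R' : ℕ, 0 < R' ∧ ∀ (k : ℕ) (F : ℍ → ℂ),
      (∀ γ : SL(2, ℤ), Ex (two O (-(B : ℤ))) R (F ∣[(k : ℤ)] γ)) →
      ∀ γ : SL(2, ℤ), Ex (two O (-(B' : ℤ))) R' (itM t k F j ∣[((k + 2 * j : ℕ) : ℤ)] γ) := by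
  induction j with
  | zero => exact ⟨B, R, hR, fun k F hF γ => hF γ⟩
  | succ j IH =>
    obtain ⟨B1, R1, hR1, h1⟩ := IH
    obtain ⟨B2, R2, hR2, h2⟩ := dM_cusps hO ho (2 ^ t) (Nat.two_pow_pos t) B1 R1 hR1
    exact ⟨B2, R2, hR2, fun k F hF γ => h2 (k + 2 * j) (itM t k F j) (h1 k F hF) γ⟩

theorem slash_one_eq (k : ℤ) (F : ℍ → ℂ) : F ∣[k] (1 : SL(2, ℤ)) = F := SlashAction.slash_one _ _

theorem itM_mdiff (hO : ∀ z : ℂ, ∀ n : ℕ, 0 < n → z ^ n = 1 → z ∈ O)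
    (ho : ∀ m : ℕ, Odd m → ((m : ℂ)⁻¹) ∈ O) (t k B R : ℕ) (hR : 0 < R) (F : ℍ → ℂ)
    (hF : ∀ γ : SL(2, ℤ), Ex (two O (-(B : ℤ))) R (F ∣[(k : ℤ)] γ)) (j : ℕ) :
    MDiff (itM t k F j) := by
  obtain ⟨B', R', hR', h⟩ := itM_cusps hO ho t B R hR j
  have := h k F hF 1
  rw [slash_one_eq] at this
  exact Ex_mdiff hR' this

/-- on `Γ₀(2^t)` the iterated derivatives commute with the slash -/
theorem itM_slash (hO : ∀ z : ℂ, ∀ n : ℕ, 0 < n → z ^ n = 1 → z ∈ O)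
    (ho : ∀ m : ℕ, Odd m → ((m : ℂ)⁻¹) ∈ O) (t k B R : ℕ) (hR : 0 < R) (F : ℍ → ℂ)
    (hF : ∀ γ : SL(2, ℤ), Ex (two O (-(B : ℤ))) R (F ∣[(k : ℤ)] γ)) (γ : SL(2, ℤ))
    (hγ : ((2 ^ t : ℕ) : ℤ) ∣ γ.1 1 0) (j : ℕ) :
    itM t k F j ∣[((k + 2 * j : ℕ) : ℤ)] γ = itM t k (F ∣[(k : ℤ)] γ) j := by
  induction j with
  | zero => rfl
  | succ j IH =>
    have h1 := dM_slash0 (2 ^ t) (Nat.two_pow_pos t) (k + 2 * j) (itM t k F j)
      (itM_mdiff hO ho t k B R hR F hF j) γ hγ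
    rw [IH] at h1
    exact h1

/-- at infinity the iterated derivatives are congruent to those of the `q`-expansion -/
theorem itM_cong (h3 : ((3 : ℂ)⁻¹) ∈ O) (hO : ∀ z : ℂ, ∀ n : ℕ, 0 < n → z ^ n = 1 → z ∈ O)
    (t k : ℕ) (ht : 2 ≤ t) (c : ℤ) (F : ℍ → ℂ) (hF : Ex (two O c) 1 F) (j : ℕ) :
    Ex (two O c) 1 (itM t k F j) ∧
    Ex (two O (c + t - 2)) 1 (fun τ => itM t k F j τ - (D^[j] F) τ) := by
  induction j with
  | zero =>
    exact ⟨hF, Ex.congr (fun τ => sub_self _) Ex.zero⟩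
  | succ j IH =>
    obtain ⟨h1, h2⟩ := IH
    have h4 := dM_cong h3 hO t (k + 2 * j) c (itM t k F j) h1
    have h5 := Ex_D1 h2
    have hle : two O (c + t - 2) ≤ two O c := two_anti O (by
      have : (2 : ℤ) ≤ t := by exact_mod_cast ht
      linarith)
    have h6 : Ex (two O c) 1 (D^[j] F) := by
      refine Ex.congr (fun τ => ?_) (Ex.sub h1 (Ex.mono hle h2))
      ring
    have h7 : D (fun τ => itM t k F j τ - (D^[j] F) τ) =
        D (itM t k F j) - D (D^[j] F) := by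
      have := normalizedDerivOfComplex_sub (itM t k F j) (D^[j] F) (Ex_mdiff one_pos h1)
        (Ex_mdiff one_pos h6)
      exact this
    rw [h7] at h5
    have h8 := Ex.add h4 h5
    have h9 : Ex (two O (c + t - 2)) 1
        (fun τ => itM t k F (j + 1) τ - (D^[j + 1] F) τ) := by
      refine Ex.congr (fun τ => ?_) h8
      rw [Function.iterate_succ', Function.comp_apply, Pi.sub_apply, itM]
      ring
    refine ⟨?_, h9⟩
    have h10 : Ex (two O c) 1 (D^[j + 1] F) := by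
      rw [Function.iterate_succ', Function.comp_apply]
      exact Ex_D1 h6
    refine Ex.congr (fun τ => ?_) (Ex.add (Ex.mono hle h9) h10)
    ring

/-- **[DER]**: for `F` of weight `k` with coefficients `a_n` at infinity, the function
`F_j = itM t k F j` of weight `k + 2 j` has coefficients congruent to `n ^ j a_n` -/
theorem itM_coeff (h3 : ((3 : ℂ)⁻¹) ∈ O) (hO : ∀ z : ℂ, ∀ n : ℕ, 0 < n → z ^ n = 1 → z ∈ O)
    (t k : ℕ) (ht : 2 ≤ t) (c : ℤ) (F : ℍ → ℂ) (a : ℕ → ℂ) (ha : ∀ n, a n ∈ two O c)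
    (hF : ∀ τ : ℍ, HasSum (fun n : ℕ => a n * cexp (2 * π * Complex.I * n * (τ : ℂ) / (1 : ℕ)))
      (F τ)) (j : ℕ) :
    ∃ b : ℕ → ℂ, (∀ n, b n - (n : ℂ) ^ j * a n ∈ two O (c + t - 2)) ∧
      ∀ τ : ℍ, HasSum (fun n : ℕ => b n * cexp (2 * π * Complex.I * n * (τ : ℂ) / (1 : ℕ)))
        (itM t k F j τ) := by
  obtain ⟨-, e, he, hs⟩ := itM_cong h3 hO t k ht c F ⟨a, ha, hF⟩ j
  refine ⟨fun n => (n : ℂ) ^ j * a n + e n, fun n => ?_, fun τ => ?_⟩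
  · have : (n : ℂ) ^ j * a n + e n - (n : ℂ) ^ j * a n = e n := by ring
    simp only [this]
    exact he n
  · have h1 := (iterD_hasSum hF j τ).add (hs τ)
    have h2 : (D^[j] F) τ + (itM t k F j τ - (D^[j] F) τ) = itM t k F j τ := by ring
    rw [h2] at h1
    exact hs_congr' h1 fun n => by ring

end Vale.Agent.P022.H67
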