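import Vale.Agent.P022.H67.Der2

/-!
# P022 stage 3, block [DER]: linearity of the iterated derivatives
-/

open Complex UpperHalfPlane Derivative EisensteinSeries CongruenceSubgroup
open scoped Real MatrixGroups ModularForm Manifold

noncomputable section

namespace Vale.Agent.P022.H67

open Vale.Agent.P022.H220 Vale.Agent.P022.H889 Vale.Agent.P022.H645

theorem mdiff_eq {F : ℍ → ℂ} : MDiff F ↔ MDifferentiable (modelWithCornersSelf ℂ ℂ)
    (modelWithCornersSelf ℂ ℂ) F := Iff.rfl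

theorem dM_mdiff (M : ℕ) (hM : 0 < M) (k : ℕ) {F : ℍ → ℂ} (hF : MDiff F) :
    MDiff (dM M hM k F) := by
  have h1 : MDiff (D F) := normalizedDerivOfComplex_mdifferentiable hF
  have h2 : MDiff (fun τ => E2 (aff M 0 1 hM one_pos τ)) :=
    Ex_mdiff one_pos (Ex_E2_aff (O := (⊤ : Subring ℂ)) (fun z n _ _ => Subring.mem_top z) M 0 1 hM
      one_pos)
  have h3 : MDiff (fun _ : ℍ => (k : ℂ) / 12 * M) := mdifferentiable_const
  exact h1.sub ((h3.mul h2).mul hF)

theorem itM_mdiff' (t k : ℕ) {F : ℍ → ℂ} (hF : MDiff F) (j : ℕ) : MDiff (itM t k F j) := by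
  induction j with
  | zero => exact hF
  | succ j IH => exact dM_mdiff _ _ _ IH

theorem dM_smul (M : ℕ) (hM : 0 < M) (k : ℕ) (c : ℂ) {F : ℍ → ℂ} (hF : MDiff F) :
    dM M hM k (fun τ => c * F τ) = fun τ => c * dM M hM k F τ := by
  have h := normalizedDerivOfComplex_smul c F hF
  have e : (c • F) = fun τ => c * F τ := rfl
  rw [e] at h
  funext τ
  rw [dM, dM, h, Pi.smul_apply, smul_eq_mul]
  ring

theorem dM_add (M : ℕ) (hM : 0 < M) (k : ℕ) {F G : ℍ → ℂ} (hF : MDiff F) (hG : MDiff G) :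
    dM M hM k (fun τ => F τ + G τ) = fun τ => dM M hM k F τ + dM M hM k G τ := by
  have h := normalizedDerivOfComplex_add F G hF hG
  have e : (F + G) = fun τ => F τ + G τ := rfl
  rw [e] at h
  funext τ
  rw [dM, dM, dM, h, Pi.add_apply]
  ring

theorem itM_smul (t k : ℕ) (c : ℂ) {F : ℍ → ℂ} (hF : MDiff F) (j : ℕ) :
    itM t k (fun τ => c * F τ) j = fun τ => c * itM t k F j τ := by
  induction j with
  | zero => rfl
  | succ j IH =>
    rw [itM, IH, dM_smul _ _ _ _ (itM_mdiff' t k hF j)]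
    rfl

theorem itM_add (t k : ℕ) {F G : ℍ → ℂ} (hF : MDiff F) (hG : MDiff G) (j : ℕ) :
    itM t k (fun τ => F τ + G τ) j = fun τ => itM t k F j τ + itM t k G j τ := by
  induction j with
  | zero => rfl
  | succ j IH =>
    rw [itM, IH, dM_add _ _ _ (itM_mdiff' t k hF j) (itM_mdiff' t k hG j)]
    rfl

/-- on `Γ₀(2^t)` the iterated derivatives commute with the slash (no hypothesis at the cusps) -/
theorem itM_slash' (t k : ℕ) {F : ℍ → ℂ} (hF : MDiff F) (γ : SL(2, ℤ))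
    (hγ : ((2 ^ t : ℕ) : ℤ) ∣ γ.1 1 0) (j : ℕ) :
    itM t k F j ∣[((k + 2 * j : ℕ) : ℤ)] γ = itM t k (F ∣[(k : ℤ)] γ) j := by
  induction j with
  | zero => rfl
  | succ j IH =>
    have h1 := dM_slash0 (2 ^ t) (Nat.two_pow_pos t) (k + 2 * j) (itM t k F j)
      (itM_mdiff' t k hF j) γ hγ
    rw [IH] at h1
    exact h1

/-- nebentypus: a scalar law on `Γ₀(2^t)` passes to the iterated derivatives -/
theorem itM_law (t k : ℕ) {F : ℍ → ℂ} (hF : MDiff F) (γ : SL(2, ℤ))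
    (hγ : ((2 ^ t : ℕ) : ℤ) ∣ γ.1 1 0) (c : ℂ) (h : F ∣[(k : ℤ)] γ = fun τ => c * F τ) (j : ℕ) :
    itM t k F j ∣[((k + 2 * j : ℕ) : ℤ)] γ = fun τ => c * itM t k F j τ := by
  rw [itM_slash' t k hF γ hγ j, h, itM_smul t k c hF j]

end Vale.Agent.P022.H67
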