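import Vale.Agent.P022.H67.DerEx
import Vale.Agent.P022.H220.Exp2
import Vale.Agent.P022.H889.E4

/-!
# P022 stage 3, block [DER]: `D F - (k/12) M E₂(M τ) F` on `Γ₀(M)`, its expansions at all cusps
-/

open Complex UpperHalfPlane Derivative EisensteinSeries
open scoped Real MatrixGroups ModularForm Manifold

noncomputable section

namespace Vale.Agent.P022.H67

open Vale.Agent.P022.H220 Vale.Agent.P022.H889

/-- `(a τ + b) / d` -/
def aff (a : ℕ) (b : ℤ) (d : ℕ) (ha : 0 < a) (hd : 0 < d) (τ : ℍ) : ℍ :=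
  ⟨(a * (τ : ℂ) + b) / d, by
    have h1 := τ.im_pos
    have h2 : (a * (τ : ℂ) + b).im = a * τ.im := by simp
    rw [Complex.div_natCast_im, h2]
    positivity⟩

@[simp] theorem aff_coe (a : ℕ) (b : ℤ) (d : ℕ) (ha : 0 < a) (hd : 0 < d) (τ : ℍ) :
    ((aff a b d ha hd τ : ℍ) : ℂ) = (a * (τ : ℂ) + b) / d := rfl

/-- the transformation of `E₂` -/
theorem E2_smul (γ : SL(2, ℤ)) (τ : ℍ) :
    E2 (γ • τ) = den γ τ ^ 2 * E2 τ - 6 * Complex.I / π * (γ.1 1 0 : ℂ) * den γ τ := by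
  have h1 := congrFun (E2_slash_action γ) τ
  have h2 := slash_eq E2 2 γ τ
  have h3 : ((2 : ℕ) : ℤ) = (2 : ℤ) := rfl
  rw [h3] at h2
  rw [h2] at h1
  have h4 : (D2 γ) τ = 2 * π * Complex.I * (γ.1 1 0 : ℂ) / den γ τ := by
    rw [← denom_eq]
    rfl
  have h5 := den_ne γ τ
  have h6 : (π : ℂ) ≠ 0 := by exact_mod_cast Real.pi_ne_zero
  rw [Pi.sub_apply, Pi.smul_apply, h4, riemannZeta_two, smul_eq_mul] at h1
  field_simp at h1
  have h7 : E2 (γ • τ) * π = π * den γ τ ^ 2 * E2 τ - 6 * Complex.I * (γ.1 1 0 : ℂ) * den γ τ := by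
    linear_combination h1
  field_simp
  linear_combination h7

/-- `[M, 0; 0, 1] γ = γ' [a, b; 0, d]` -/
theorem decomp (M : ℕ) (hM : 0 < M) (γ : SL(2, ℤ)) :
    ∃ (a : ℕ) (b : ℤ) (d : ℕ) (ha : 0 < a) (hd : 0 < d) (γ' : SL(2, ℤ)), a * d = M ∧
      γ.1 1 0 = a * γ'.1 1 0 ∧
      (∀ τ : ℍ, aff M 0 1 hM one_pos (γ • τ) = γ' • aff a b d ha hd τ ∧
        d * den γ' (aff a b d ha hd τ) = den γ τ) ∧
      ((M : ℤ) ∣ γ.1 1 0 → a = M ∧ d = 1) := by
  have hdet := det_eq γ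
  set a : ℕ := Int.gcd (M * γ.1 0 0) (γ.1 1 0) with ha'
  have ha : 0 < a := by
    rw [ha', Int.gcd_pos_iff]
    by_contra h
    push Not at h
    obtain ⟨h1, h2⟩ := h
    have h3 : γ.1 0 0 = 0 := by
      rcases mul_eq_zero.1 h1 with h | h
      · exact absurd (by exact_mod_cast h) hM.ne'
      · exact h
    rw [h3, h2] at hdet
    simp at hdet
  have haZ : (a : ℤ) ≠ 0 := by exact_mod_cast ha.ne'
  obtain ⟨x, hx⟩ : (a : ℤ) ∣ M * γ.1 0 0 := Int.gcd_dvd_left _ _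
  obtain ⟨z, hz⟩ : (a : ℤ) ∣ γ.1 1 0 := Int.gcd_dvd_right _ _
  have hbez := Int.gcd_eq_gcd_ab (M * γ.1 0 0) (γ.1 1 0)
  set w := Int.gcdA (M * γ.1 0 0) (γ.1 1 0)
  set y := -Int.gcdB (M * γ.1 0 0) (γ.1 1 0) with hy
  have hxz : x * w - y * z = 1 := by
    have h1 : (a : ℤ) * (x * w - y * z) = a * 1 := by
      rw [← ha'] at hbez
      rw [hy, mul_one]
      linear_combination -hbez - w * hx - (Int.gcdB (M * γ.1 0 0) (γ.1 1 0)) * hz
    exact mul_left_cancel₀ haZ h1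
  set b := w * M * γ.1 0 1 - y * γ.1 1 1 with hb
  set d' := x * γ.1 1 1 - z * M * γ.1 0 1 with hd'
  have had : (a : ℤ) * d' = M := by
    rw [hd']
    linear_combination (M : ℤ) * hdet - γ.1 1 1 * hx + (M : ℤ) * γ.1 0 1 * hz
  have hdpos : 0 < d' := by
    have h1 : (0 : ℤ) < a * d' := by rw [had]; exact_mod_cast hM
    exact (mul_pos_iff_of_pos_left (by exact_mod_cast ha)).1 h1
  obtain ⟨d, hdd⟩ := Int.eq_ofNat_of_zero_le hdpos.le
  have hd : 0 < d := by rw [hdd] at hdpos; exact_mod_cast hdpos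
  have had2 : a * d = M := by
    rw [hdd] at had
    exact_mod_cast had
  obtain ⟨γ', g1, g2, g3, g4⟩ := exists_sl x y z w hxz
  have k1 : x * b + y * d' = M * γ.1 0 1 := by
    rw [hb, hd']
    linear_combination (M : ℤ) * γ.1 0 1 * hxz
  have k2 : z * b + w * d' = γ.1 1 1 := by
    rw [hb, hd']
    linear_combination γ.1 1 1 * hxz
  have hd0 : (d : ℂ) ≠ 0 := by exact_mod_cast hd.ne'
  refine ⟨a, b, d, ha, hd, γ', had2, by rw [g3]; exact hz, fun τ => ?_, fun h => ?_⟩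
  · have e1 : (d : ℂ) * den γ' (aff a b d ha hd τ) = den γ τ := by
      rw [den, den, g3, g4, aff_coe]
      have c1 : (z : ℂ) * b + w * d = γ.1 1 1 := by
        have : z * b + w * (d : ℤ) = γ.1 1 1 := by rw [← hdd]; exact k2
        exact_mod_cast this
      have c2 : (γ.1 1 0 : ℂ) = a * z := by exact_mod_cast hz
      field_simp
      linear_combination c1 - (τ : ℂ) * c2
    refine ⟨?_, e1⟩
    apply UpperHalfPlane.ext
    have h5 := den_ne γ τ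
    have h6 : den γ' (aff a b d ha hd τ) = den γ τ / d := by
      rw [← e1]; field_simp
    rw [smul_coe γ', h6, aff_coe, smul_coe γ, g1, g2, aff_coe]
    have c1 : (x : ℂ) * b + y * d = M * γ.1 0 1 := by
      have : x * b + y * (d : ℤ) = M * γ.1 0 1 := by rw [← hdd]; exact k1
      exact_mod_cast this
    have c2 : (M : ℂ) * γ.1 0 0 = a * x := by exact_mod_cast hx
    push_cast
    field_simp
    linear_combination (τ : ℂ) * c2 - c1
  · have h1 : M ∣ a := by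
      have h2 : (M : ℤ) ∣ (a : ℤ) := by
        rw [ha']
        exact Int.dvd_coe_gcd (dvd_mul_right _ _) h
      exact_mod_cast h2
    have h3 : a = M := Nat.dvd_antisymm (had2 ▸ dvd_mul_right a d) h1
    refine ⟨h3, ?_⟩
    rw [h3] at had2
    exact Nat.eq_of_mul_eq_mul_left hM (by rw [had2, mul_one])

/-- `F ↦ D F - (k/12) M E₂(M τ) F` -/
def dM (M : ℕ) (hM : 0 < M) (k : ℕ) (F : ℍ → ℂ) (τ : ℍ) : ℂ :=
  D F τ - (k : ℂ) / 12 * M * E2 (aff M 0 1 hM one_pos τ) * F τ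

/-- `dM` under the slash by any `γ` -/
theorem dM_slash (M : ℕ) (hM : 0 < M) (k : ℕ) (F : ℍ → ℂ) (hF : MDiff F) (γ : SL(2, ℤ)) :
    ∃ (a : ℕ) (b : ℤ) (d : ℕ) (ha : 0 < a) (hd : 0 < d), a * d = M ∧
      ((M : ℤ) ∣ γ.1 1 0 → a = M ∧ d = 1) ∧
      ∀ τ : ℍ, (dM M hM k F ∣[((k + 2 : ℕ) : ℤ)] γ) τ = D (F ∣[(k : ℤ)] γ) τ -
        (k : ℂ) / 12 * (a / d) * E2 (aff a b d ha hd τ) * (F ∣[(k : ℤ)] γ) τ := by
  obtain ⟨a, b, d, ha, hd, γ', h1, h2, h3, h4⟩ := decomp M hM γ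
  refine ⟨a, b, d, ha, hd, h1, h4, fun τ => ?_⟩
  have hk : ((k + 2 : ℕ) : ℤ) = (k : ℤ) + 2 := by push_cast; ring
  have e1 := congrFun (normalizedDerivOfComplex_SL_slash (k := (k : ℤ)) hF (γ := γ)) τ
  rw [Pi.sub_apply] at e1
  have e2 : (D F ∣[(k : ℤ) + 2] γ) τ = D F (γ • τ) / den γ τ ^ (k + 2) := by
    rw [← hk, slash_eq]
  have hden : denom (γ : GL (Fin 2) ℝ) (τ : ℂ) = den γ τ := denom_eq γ τ
  have e3 : (F ∣[(k : ℤ)] γ) τ = F (γ • τ) / den γ τ ^ k := slash_eq F k γ τ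
  have h5 := den_ne γ τ
  have h6 : (π : ℂ) ≠ 0 := by exact_mod_cast Real.pi_ne_zero
  have hd0 : (d : ℂ) ≠ 0 := by exact_mod_cast hd.ne'
  have ha0 : (a : ℂ) ≠ 0 := by exact_mod_cast ha.ne'
  have e4 : (M : ℂ) * E2 (aff M 0 1 hM one_pos (γ • τ)) =
      den γ τ ^ 2 * (a / d) * E2 (aff a b d ha hd τ) -
        6 * Complex.I / π * (γ.1 1 0 : ℂ) * den γ τ := by
    rw [(h3 τ).1, E2_smul]
    have h7 : den γ' (aff a b d ha hd τ) = den γ τ / d := by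
      rw [← (h3 τ).2]; field_simp
    have h8 : (M : ℂ) = a * d := by rw [← h1]; push_cast; ring
    have h9 : (γ.1 1 0 : ℂ) = a * (γ'.1 1 0 : ℂ) := by rw [h2]; push_cast; ring
    rw [h7, h8, h9]
    field_simp
  rw [slash_eq, dM, sub_div]
  have e5 : D F (γ • τ) / den γ τ ^ (k + 2) = D (F ∣[(k : ℤ)] γ) τ +
      k * (2 * π * Complex.I)⁻¹ * ((γ.1 1 0 : ℂ) / den γ τ) * (F ∣[(k : ℤ)] γ) τ := by
    rw [← e2]
    rw [hden] at e1
    rw [e1]
    push_cast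
    ring
  rw [e5, e3]
  have e6 : (k : ℂ) / 12 * M * E2 (aff M 0 1 hM one_pos (γ • τ)) * F (γ • τ) =
      (k : ℂ) / 12 * (den γ τ ^ 2 * (a / d) * E2 (aff a b d ha hd τ) -
        6 * Complex.I / π * (γ.1 1 0 : ℂ) * den γ τ) * F (γ • τ) := by
    rw [← e4]; ring
  rw [e6, pow_add]
  have hI : (Complex.I : ℂ)⁻¹ = -Complex.I := Complex.inv_I
  rw [mul_inv, hI]
  field_simp
  ring

end Vale.Agent.P022.H67
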