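import Vale.Agent.P022.H220.Exp

/-!
# P022 stage 3, block [DER], part 1: the derivative of an expansion
-/

open Complex UpperHalfPlane Derivative
open scoped Real MatrixGroups ModularForm Manifold ENNReal NNReal

noncomputable section

namespace Vale.Agent.P022.H67

open Vale.Agent.P022.H220

/-- the series of the derivative -/
theorem hasSum_deriv {a : ℕ → ℂ} (h : ∀ z : ℂ, z ≠ 0 → ‖z‖ < 1 → Summable fun n => a n * z ^ n)
    {z : ℂ} (hz : ‖z‖ < 1) :
    ∃ d : ℂ, HasDerivAt (fun z => ∑' n, a n * z ^ n) d z ∧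
      HasSum (fun n : ℕ => (n : ℂ) * a n * z ^ n) (z * d) := by
  set p := FormalMultilinearSeries.ofScalars ℂ a with hp
  have hpa : ∀ (n : ℕ) (z : ℂ), (p n fun _ => z) = a n * z ^ n := by
    intro n z
    rw [hp, FormalMultilinearSeries.ofScalars_apply_eq, smul_eq_mul]
  have hrad : (1 : ℝ≥0∞) ≤ p.radius := by
    refine ENNReal.le_of_forall_nnreal_lt fun r hr => ?_
    have hr1 : (r : ℝ) < 1 := by exact_mod_cast hr
    have h0 : Summable fun n => ‖p n‖ * (r : ℝ) ^ n := by
      by_cases hr0 : r = 0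
      · refine summable_of_ne_finset_zero (s := {0}) fun n hn => ?_
        rw [Finset.mem_singleton] at hn
        rw [hr0, NNReal.coe_zero, zero_pow hn, mul_zero]
      · have h1 := (h (r : ℝ) (by exact_mod_cast hr0) (by
          rw [Complex.norm_real, Real.norm_of_nonneg (NNReal.coe_nonneg r)]; exact hr1)).norm
        refine h1.congr fun n => ?_
        rw [hp, FormalMultilinearSeries.ofScalars_norm, norm_mul, norm_pow, Complex.norm_real,
          Real.norm_of_nonneg (NNReal.coe_nonneg r)]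
    exact p.le_radius_of_summable_norm h0
  have hball := p.hasFPowerSeriesOnBall (lt_of_lt_of_le one_pos hrad)
  have hsum : p.sum = fun z => ∑' n, a n * z ^ n := by
    funext z
    rw [FormalMultilinearSeries.sum]
    exact tsum_congr fun n => hpa n z
  have hz' : z ∈ Metric.eball (0 : ℂ) p.radius := by
    rw [Metric.mem_eball, edist_zero_right]
    refine lt_of_lt_of_le ?_ hrad
    rw [← ofReal_norm]
    rwa [← ENNReal.ofReal_one, ENNReal.ofReal_lt_ofReal_iff one_pos]
  have hd : DifferentiableAt ℂ p.sum z := (hball.analyticAt_of_mem hz').differentiableAt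
  refine ⟨deriv p.sum z, hsum ▸ hd.hasDerivAt, ?_⟩
  have h2 := (hball.fderiv.hasSum hz')
  rw [zero_add] at h2
  have h3 := (ContinuousLinearMap.apply ℂ ℂ z).hasSum h2
  simp only [ContinuousLinearMap.apply_apply] at h3
  have h4 : fderiv ℂ p.sum z z = z * deriv p.sum z := by
    have := (fderiv ℂ p.sum z).map_smul z 1
    rw [smul_eq_mul, mul_one] at this
    rw [this, smul_eq_mul]
    rfl
  rw [h4] at h3
  have h5 : HasSum (fun n : ℕ => ((n + 1 : ℕ) : ℂ) * a (n + 1) * z ^ (n + 1))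
      (z * deriv p.sum z) := by
    refine hs_congr' h3 fun n => ?_
    rw [p.derivSeries_apply_diag n z, hpa]
    push_cast
    rw [nsmul_eq_mul]
    push_cast
    ring
  have h6 := (hasSum_nat_add_iff (f := fun n : ℕ => (n : ℂ) * a n * z ^ n) 1).1 h5
  simpa using h6

variable {A : AddSubgroup ℂ} {R : ℕ} {F G : ℍ → ℂ}

/-- the derivative of a function with an expansion -/
theorem D_hasSum (hR : 0 < R) {a : ℕ → ℂ}
    (h : ∀ τ : ℍ, HasSum (fun n : ℕ => a n * cexp (2 * π * Complex.I * n * (τ : ℂ) / R)) (F τ)) :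
    (∀ τ : ℍ, DifferentiableAt ℂ (F ∘ ofComplex) (τ : ℂ)) ∧
    ∀ τ : ℍ, HasSum (fun n : ℕ => ((n : ℂ) / R * a n) *
      cexp (2 * π * Complex.I * n * (τ : ℂ) / R)) (D F τ) := by
  have hR' : (R : ℂ) ≠ 0 := by exact_mod_cast hR.ne'
  have hπ : (π : ℂ) ≠ 0 := by exact_mod_cast Real.pi_ne_zero
  have hs : ∀ z : ℂ, z ≠ 0 → ‖z‖ < 1 → Summable fun n => a n * z ^ n := by
    intro z hz hz'
    obtain ⟨τ, hτ⟩ := Ex.exists_tau hR hz hz'
    refine (h τ).summable.congr fun n => ?_
    rw [Ex.cexp_pow, hτ]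
  have key : ∀ τ : ℍ, HasDerivAt (F ∘ ofComplex) (2 * π * Complex.I / R *
      ∑' n : ℕ, (n : ℂ) * a n * cexp (2 * π * Complex.I * (τ : ℂ) / R) ^ n) (τ : ℂ) ∧
      Summable fun n : ℕ => (n : ℂ) * a n * cexp (2 * π * Complex.I * (τ : ℂ) / R) ^ n := by
    intro τ
    set q : ℂ → ℂ := fun w => cexp (2 * π * Complex.I * w / R) with hq
    have hqn : ‖q τ‖ < 1 := by
      have e : 2 * π * Complex.I * (τ : ℂ) / R = ((2 * π / R : ℝ) : ℂ) * (Complex.I * τ) := by
        push_cast
        field_simp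
      rw [hq]
      simp only
      rw [Complex.norm_exp, e, Complex.re_ofReal_mul, Complex.I_mul_re]
      rw [Real.exp_lt_one_iff]
      have h1 := τ.im_pos
      have h2 : 0 < 2 * π / (R : ℝ) := by positivity
      have h3 : (τ : ℂ).im = τ.im := rfl
      rw [h3]
      nlinarith
    obtain ⟨d, hd1, hd2⟩ := hasSum_deriv hs hqn
    have hq' : HasDerivAt q (q τ * (2 * π * Complex.I / R)) (τ : ℂ) := by
      have h1 : HasDerivAt (fun w : ℂ => 2 * π * Complex.I * w / R) (2 * π * Complex.I / R)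
          (τ : ℂ) := by
        have := ((hasDerivAt_id (τ : ℂ)).const_mul (2 * π * Complex.I)).div_const (R : ℂ)
        simpa using this
      exact h1.cexp
    have hc := hd1.comp (τ : ℂ) hq'
    have he : (F ∘ ofComplex) =ᶠ[nhds (τ : ℂ)]
        ((fun z => ∑' n, a n * z ^ n) ∘ q) := by
      filter_upwards [isOpen_upperHalfPlaneSet.mem_nhds τ.im_pos] with w hw
      have h1 := h ⟨w, hw⟩
      rw [Function.comp_apply, ofComplex_apply_of_im_pos hw, ← h1.tsum_eq, Function.comp_apply]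
      refine tsum_congr fun n => ?_
      rw [Ex.cexp_pow]
    refine ⟨?_, hd2.summable⟩
    have h7 := hc.congr_of_eventuallyEq he
    convert! h7 using 1
    rw [hd2.tsum_eq]
    ring
  refine ⟨fun τ => (key τ).1.differentiableAt, fun τ => ?_⟩
  obtain ⟨h1, h2⟩ := key τ
  rw [normalizedDerivOfComplex, h1.deriv]
  have h3 := (h2.hasSum.mul_left ((2 * π * Complex.I)⁻¹ * (2 * π * Complex.I / R)))
  rw [mul_assoc (2 * π * Complex.I)⁻¹] at h3
  refine hs_congr' h3 fun n => ?_
  rw [Ex.cexp_pow]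
  have hI : (Complex.I : ℂ) ≠ 0 := Complex.I_ne_zero
  field_simp

/-- a function with an expansion is holomorphic -/
theorem Ex_mdiff (hR : 0 < R) (hF : Ex A R F) : MDiff F := by
  obtain ⟨a, -, hs⟩ := hF
  intro τ
  exact UpperHalfPlane.mdifferentiableAt_iff.2 ((D_hasSum hR hs).1 τ)

/-- the derivative of an expansion, denominator `R` -/
theorem Ex_D (hR : 0 < R) (hF : Ex A R F) {B : AddSubgroup ℂ}
    (hB : ∀ a ∈ A, ∀ n : ℕ, (n : ℂ) / R * a ∈ B) : Ex B R (D F) := by
  obtain ⟨a, ha, hs⟩ := hF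
  exact ⟨_, fun n => hB _ (ha n) n, (D_hasSum hR hs).2⟩

/-- the derivative of an expansion with `R = 1` -/
theorem Ex_D1 (hF : Ex A 1 F) : Ex A 1 (D F) := by
  refine Ex_D one_pos hF fun a ha n => ?_
  have := A.nsmul_mem ha n
  simpa using this

/-- iterated derivative of an expansion with `R = 1` -/
theorem iterD_hasSum {a : ℕ → ℂ}
    (h : ∀ τ : ℍ, HasSum (fun n : ℕ => a n * cexp (2 * π * Complex.I * n * (τ : ℂ) / (1 : ℕ)))
      (F τ)) (j : ℕ) :
    ∀ τ : ℍ, HasSum (fun n : ℕ => ((n : ℂ) ^ j * a n) *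
      cexp (2 * π * Complex.I * n * (τ : ℂ) / (1 : ℕ))) ((D^[j] F) τ) := by
  induction j with
  | zero => simpa using h
  | succ j IH =>
    intro τ
    rw [Function.iterate_succ', Function.comp_apply]
    refine hs_congr' ((D_hasSum one_pos IH).2 τ) fun n => ?_
    push_cast
    ring

end Vale.Agent.P022.H67
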